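import Vale.Agent.P235.ST.H483.Stretch
import Vale.Agent.P235.ST.H317.R12
import Vale.Agent.P235.ST.H673.PieceW
import Vale.Agent.P235.ST.H875.Bumps
import Vale.Agent.P235.ST.H183.PartB
import Vale.Agent.P235.ST.H548.Top

/-! P235, (ST) O(1): assembly of all rows (helper483). -/

namespace Vale.Agent.P235.STO.H483

open SimpleGraph

/-- **part B** (row r16) -/
theorem partB {V : Type} [Fintype V] (W : LWorld V) :
    ∃ (Ω : Type) (_ : Fintype Ω) (_ : Nonempty Ω) (w : Ω → V → ℝ),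
    (∀ x y, W.G.Adj x y → ∑ o, |w o x - w o y| ≤ Fintype.card Ω) ∧
    ∀ x ∈ W.N, ∀ y ∈ W.N, 2 ^ 92 ≤ W.d x y →
      Fintype.card Ω * (1 / 2 ^ 190 * W.d x y) ≤ ∑ o, |w o x - w o y| :=
  have hS : H317.Stretch W := by
    intro ρ w h1 h2 p a b k m g hg hr ha hb hne
    exact stretch W h1 h2 g hg hr ha hb hne
  H183.partB W (fun h => H875.bumps h) (fun h1 h2 h3 h4 => H673.inv_step W hS h1 h2 h3 h4)

/-- **(ST) O(1)**: planar graphs; genus `g` and `t` apices -/
theorem near : ∃ C : ℝ, 1 ≤ C ∧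
    (∀ (V : Type) [Finite V] (G : SimpleGraph V), G.Connected →
      (∃ σ : Equiv.Perm G.Dart, PlaneMap G σ) → DistortionLE G C) ∧
    ∀ (n g t : ℕ) (V : Type) [Finite V] (G : SimpleGraph V), G.Connected → NearSurf n g t V G →
      DistortionLE G (C * (1 + Real.log (g + 2) + Real.log (t + 2))) :=
  H548.near_of_core (by positivity) (H548.core1 fun V _ W => partB W)

end Vale.Agent.P235.STO.H483
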