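import Vale.Agent.P235.ST.H317.Defs2
import Vale.Agent.P235.ST.H119.Clock
import Vale.Agent.P235.ST.H188.RowsPlan
import Vale.Agent.P235.ST.H12.R10

set_option autoImplicit false

/-! P235, (ST) O(1), row r11: one stretch. -/

namespace Vale.Agent.P235.STO.H483

open SimpleGraph
open Vale.Agent.P235.STO.H119 (reach_of_walk D_lip D_M)
open Vale.Agent.P235.STO.H188 (nxt_scale nxt_attain uns_le)
open Vale.Agent.P235.STO.H12 (cost_append vert hop_cost)

variable {V : Type}

/-- the first prefix of a walk with a property -/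
theorem first_prefix {G : SimpleGraph V} {a b : V} (g : G.Walk a b)
    (P : ∀ c : V, G.Walk a c → Prop) :
    (∀ (c : V) (g1 : G.Walk a c) (g2 : G.Walk c b), g = g1.append g2 → 0 < g1.length →
      ¬ P c g1) ∨
    ∃ (c : V) (g1 : G.Walk a c) (g2 : G.Walk c b), g = g1.append g2 ∧ 0 < g1.length ∧ P c g1 ∧
      ∀ (c' : V) (h1 : G.Walk a c') (h2 : G.Walk c' c), g1 = h1.append h2 → 0 < h1.length →
        h1.length < g1.length → ¬ P c' h1 := by
  classical
  by_cases hex : ∃ n : ℕ, ∃ (c : V) (g1 : G.Walk a c) (g2 : G.Walk c b), g = g1.append g2 ∧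
      0 < g1.length ∧ g1.length = n ∧ P c g1
  · right
    obtain ⟨c, g1, g2, h1, h2, h3, h4⟩ := Nat.find_spec hex
    refine ⟨c, g1, g2, h1, h2, h4, ?_⟩
    intro c' k1 k2 hk hk0 hlt hP
    have hlt' : k1.length < Nat.find hex := by rw [← h3]; exact hlt
    refine Nat.find_min hex hlt' ⟨c', k1, k2.append g2, ?_, hk0, rfl, hP⟩
    rw [h1, hk, Walk.append_assoc]
  · left
    intro c g1 g2 h1 h2 hP
    exact hex ⟨_, c, g1, g2, h1, h2, rfl, hP⟩

/-- splitting a walk at a vertex of the support -/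
theorem split_at {G : SimpleGraph V} {a b v : V} (g : G.Walk a b) (hv : v ∈ g.support) :
    ∃ (g1 : G.Walk a v) (g2 : G.Walk v b), g = g1.append g2 ∧
      (v ≠ a → 0 < g1.length) ∧ (v ≠ b → g1.length < g.length) := by
  classical
  refine ⟨g.takeUntil v hv, g.dropUntil v hv, (g.take_spec hv).symm, ?_, ?_⟩
  · intro h
    by_contra hc
    have h0 : (g.takeUntil v hv).length = 0 := by omega
    exact h (Walk.eq_of_length_eq_zero h0).symm
  · intro h
    have h1 : (g.dropUntil v hv).length ≠ 0 := fun h0 => h (Walk.eq_of_length_eq_zero h0)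
    have h2 := congrArg Walk.length (g.take_spec hv)
    rw [Walk.length_append] at h2
    omega

theorem cost_nonneg {G : SimpleGraph V} (w : V → ℝ) : ∀ {x y : V} (p : G.Walk x y), 0 ≤ cost w p
  | _, _, .nil => le_rfl
  | _, _, .cons _ p => by
    have := cost_nonneg w p
    unfold cost
    positivity

theorem cost_prefix {G : SimpleGraph V} (w : V → ℝ) {a b c : V} {g : G.Walk a b}
    {g1 : G.Walk a c} {g2 : G.Walk c b} (h : g = g1.append g2) : cost w g1 ≤ cost w g := by
  rw [h, cost_append]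
  linarith [cost_nonneg w g2]

/-- heights along a walk -/
theorem height_walk (W : LWorld V) : ∀ {a b : V} (g : W.G.Walk a b), |W.u b - W.u a| ≤ g.length
  | _, _, .nil => by simp
  | a, b, .cons (v := v) h p => by
    have h1 := height_walk W p
    have h2 := W.unit _ _ h
    rw [Walk.length_cons]
    have h3 : |W.u b - W.u a| ≤ |W.u b - W.u v| + |W.u a - W.u v| := by
      have := abs_sub_abs_le_abs_sub (W.u b - W.u a) (W.u v - W.u a)
      have e1 : W.u b - W.u a = (W.u b - W.u v) - (W.u a - W.u v) := by ring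
      rw [e1]
      exact abs_sub _ _
    push_cast
    linarith

theorem height_dist (W : LWorld V) (a b : V) : |(W.u b : ℝ) - W.u a| ≤ W.d a b := by
  obtain ⟨g, hg⟩ := W.conn.exists_walk_length_eq_dist a b
  have h1 := height_walk W g
  rw [hg] at h1
  unfold LWorld.d
  exact_mod_cast h1

theorem height_support (W : LWorld V) {a b : V} (g : W.G.Walk a b) {v : V} (hv : v ∈ g.support) :
    |W.u v - W.u a| ≤ g.length := by
  obtain ⟨g1, g2, h1, -, -⟩ := split_at g hv
  have h2 := height_walk W g1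
  have h3 := congrArg Walk.length h1
  rw [Walk.length_append] at h3
  have h4 : (g1.length : ℤ) ≤ g.length := by exact_mod_cast (by omega : g1.length ≤ g.length)
  linarith

theorem d_symm (W : LWorld V) (a b : V) : W.d a b = W.d b a := by
  unfold LWorld.d
  rw [SimpleGraph.dist_comm]

theorem d_tri (W : LWorld V) (a b c : V) : W.d a c ≤ W.d a b + W.d b c := by
  unfold LWorld.d
  exact_mod_cast W.conn.dist_triangle

theorem d_nonneg (W : LWorld V) (a b : V) : 0 ≤ W.d a b := Nat.cast_nonneg _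

theorem d_self (W : LWorld V) (a : V) : W.d a a = 0 := by
  unfold LWorld.d
  simp

/-- distance on a line -/
theorem d_line (W : LWorld V) {p a b : V} (hp : p ∈ W.N) (ha : a ∈ W.L p) (hb : b ∈ W.L p) :
    W.d a b ≤ |(W.u a : ℝ) - W.u b| := by
  rcases le_total (W.u a) (W.u b) with h | h
  · obtain ⟨q, hq, -⟩ := W.L_path p hp a ha b hb h
    have h1 : W.G.dist a b ≤ q.length := SimpleGraph.dist_le q
    have h2 : (W.G.dist a b : ℤ) ≤ W.u b - W.u a := by rw [← hq]; exact_mod_cast h1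
    have h3 : (W.G.dist a b : ℝ) ≤ (W.u b : ℝ) - W.u a := by exact_mod_cast h2
    unfold LWorld.d
    rw [abs_sub_comm]
    exact h3.trans (le_abs_self _)
  · obtain ⟨q, hq, -⟩ := W.L_path p hp b hb a ha h
    have h1 : W.G.dist b a ≤ q.length := SimpleGraph.dist_le q
    have h2 : (W.G.dist b a : ℤ) ≤ W.u a - W.u b := by rw [← hq]; exact_mod_cast h1
    have h3 : (W.G.dist b a : ℝ) ≤ (W.u a : ℝ) - W.u b := by exact_mod_cast h2
    rw [d_symm]
    unfold LWorld.d
    exact h3.trans (le_abs_self _)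

/-- a short walk from inside a band stays in the band -/
theorem band_walk (W : LWorld V) (k m : ℕ) {x y : V} (g : W.G.Walk x y) (r : ℤ)
    (hr : (g.length : ℤ) ≤ r) (h1 : r ≤ W.pos k m x) (h2 : W.pos k m x + r < th k) :
    ∀ z ∈ g.support, W.bi k m z = W.bi k m x := by
  intro z hz
  have h3 := height_support W g hz
  have h4 := abs_le.1 (h3.trans hr)
  have hth : 0 < th k := by unfold th; positivity
  unfold LWorld.bi
  unfold LWorld.pos at h1 h2
  have e1 := Int.emod_add_mul_ediv (W.u x + m * 2 ^ k) (th k)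
  set Q := (W.u x + m * 2 ^ k) / th k with hQ
  set R := (W.u x + m * 2 ^ k) % th k with hR
  rw [Int.ediv_eq_iff_of_pos hth]
  constructor
  · nlinarith
  · nlinarith

/-- the centre of a vertex of positive scale, seen by the clock `(k, m)` -/
structure Centre [Fintype V] (W : LWorld V) (ρ : V → ℝ) (k m : ℕ) (a z y : V) (t : ℝ) : Prop where
  hz : z ∈ W.N
  hy : y ∈ W.N
  huzy : W.u z = W.u y
  ht : t = W.d z y
  tpos : 0 < t
  nx : W.nxt ρ a ≤ t
  az : W.d a z ≤ kap * t
  laty : a ∉ W.L y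
  lidx : W.idx a < W.idx y
  ray : (W.Bg k m).Reachable a y
  dy : (W.D k m y : ℝ) ≤ W.D k m a + (kap + cp) * t

theorem centre [Fintype V] (W : LWorld V) {ρ : V → ℝ} (hρ : W.Scale ρ) {p a : V} {k m : ℕ}
    (m16 : m < 16) (big : 2 ^ 100 ≤ ρ p) (lo : 64 * d1 * ρ p ≤ (th k : ℝ))
    (hi : (th k : ℝ) ≤ (2 / 3) * dl * ρ p) (ball : W.d p a ≤ kap * ρ p / 4 + 1)
    (band : 6 * 2 ^ k ≤ W.pos k m a ∧ W.pos k m a ≤ 9 * 2 ^ k) (ha : a ∈ W.N)
    (hpos : 0 < W.nxt ρ a) :
    ∃ (z y : V) (t : ℝ), Centre W ρ k m a z y t ∧ t ≤ 21 * (d1 * ρ p) := by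
  obtain ⟨z, y, hun, hval⟩ := nxt_attain W hpos
  have hle := uns_le W hρ hun
  obtain ⟨hz, hy, huzy, hidx, hr0, h2t, hserve⟩ := hun
  obtain ⟨t, ht⟩ : ∃ t, t = W.d z y := ⟨_, rfl⟩
  rw [← ht] at hval hle hr0 h2t
  have hkap : (0 : ℝ) < kap := by unfold kap; positivity
  have hd0 := d_nonneg W a z
  have haz : W.d a z ≤ kap * t := by
    have h1 : W.d a z / kap ≤ t := by linarith
    rw [div_le_iff₀ hkap] at h1
    linarith
  have hnx : W.nxt ρ a ≤ t := by
    have : 0 ≤ W.d a z / kap := div_nonneg hd0 hkap.le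
    linarith
  have htpos : 0 < t := lt_of_lt_of_le hpos hnx
  -- the scale at `z`
  have hpz : W.d p z ≤ kap * ρ p / 4 + 1 + kap * t := by
    have := d_tri W p a z
    linarith
  have hlip := abs_le.1 (hρ.lip p z)
  have hdk : W.d p z / kap ≤ ρ p / 4 + 2 ^ 22 + t := by
    rw [div_le_iff₀ hkap]
    have e1 : (2 : ℝ) ^ 22 * kap = 1 := by unfold kap; norm_num
    nlinarith
  have hzu : ρ z ≤ (13 / 10) * ρ p := by
    have h1 : ρ z ≤ (5 / 4) * ρ p + 2 ^ 22 + t := by linarith [hlip.1]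
    have h2 : t ≤ 16 * (1 / 2 ^ 100) * ρ z := by simpa only [d1] using hle
    have h3 : (2 : ℝ) ^ 100 ≤ ρ p := big
    norm_num at h1 h2 h3 ⊢
    linarith
  have htd : t ≤ (208 / 10) * (1 / 2 ^ 100) * ρ p := by
    have h2 : t ≤ 16 * (1 / 2 ^ 100) * ρ z := by simpa only [d1] using hle
    norm_num at h2 hzu ⊢
    linarith
  have hzl : (7 / 10) * ρ p ≤ ρ z := by
    have h1 : (3 / 4) * ρ p - 2 ^ 22 - t ≤ ρ z := by linarith [hlip.2]
    have h3 : (2 : ℝ) ^ 100 ≤ ρ p := big
    norm_num at h1 h3 htd ⊢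
    linarith
  -- the thickness
  obtain ⟨q, hq⟩ : ∃ q : ℝ, q = 2 ^ k := ⟨_, rfl⟩
  have hq1 : 1 ≤ q := by rw [hq]; exact one_le_pow₀ (by norm_num)
  have hth : (th k : ℝ) = 16 * q := by rw [hq]; unfold th; push_cast; ring
  rw [hth] at lo hi
  have hqlo : 4 * (1 / 2 ^ 100) * ρ p ≤ q := by
    have h1 : 64 * (1 / 2 ^ 100) * ρ p ≤ 16 * q := by simpa only [d1] using lo
    norm_num at h1 ⊢
    linarith
  have htq : t ≤ (52 / 10) * q := by
    norm_num at htd hqlo ⊢
    linarith
  have hin : inList (ρ z) k := by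
    refine ⟨?_, ?_⟩
    · rw [hth]
      have h1 : (1 / 2 ^ 100) * ρ z ≤ 16 * q := by
        have h3 : (2 : ℝ) ^ 100 ≤ ρ p := big
        norm_num at hzu hqlo h3 ⊢
        linarith
      simpa only [d1] using h1
    · rw [hth]
      have hdl : (0 : ℝ) < dl := by unfold dl; positivity
      have h1 : (2 / 3) * dl * ρ p ≤ dl * ρ z := by nlinarith
      linarith
  -- integer bounds
  have hQ1 : (1 : ℤ) ≤ 2 ^ k := one_le_pow₀ (by norm_num)
  have hazi : 1000 * (W.G.dist a z : ℤ) ≤ 2 ^ k := by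
    have h1 : (1000 : ℝ) * (W.G.dist a z : ℝ) ≤ 2 ^ k := by
      rw [← hq]
      have h2 : W.d a z ≤ (1 / 2 ^ 22) * t := by simpa only [kap] using haz
      unfold LWorld.d at h2
      norm_num at h2
      linarith
    exact_mod_cast h1
  have hzyi : 1000 * (W.G.dist z y : ℤ) ≤ 5200 * 2 ^ k := by
    have h1 : (1000 : ℝ) * (W.G.dist z y : ℝ) ≤ 5200 * 2 ^ k := by
      rw [← hq]
      have h2 : (W.G.dist z y : ℝ) = t := ht.symm
      rw [h2]
      linarith
    exact_mod_cast h1
  have hthi : th k = 16 * 2 ^ k := rfl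
  obtain ⟨g1, hg1⟩ := W.conn.exists_walk_length_eq_dist a z
  obtain ⟨g2, hg2⟩ := W.conn.exists_walk_length_eq_dist z y
  have hb1 := band_walk W k m g1 (W.G.dist a z) (by rw [hg1]) (by
    have := band.1
    have h0 : (0 : ℤ) ≤ W.G.dist a z := Int.natCast_nonneg _
    linarith) (by
    rw [hthi]
    have := band.2
    linarith)
  have hbz := hb1 z g1.end_mem_support
  have hposz : W.pos k m z = W.pos k m a + (W.u z - W.u a) := by
    have e1 := Int.emod_add_mul_ediv (W.u z + m * 2 ^ k) (th k)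
    have e2 := Int.emod_add_mul_ediv (W.u a + m * 2 ^ k) (th k)
    unfold LWorld.bi at hbz
    rw [hbz] at e1
    unfold LWorld.pos
    linarith
  have hhz := height_walk W g1
  rw [hg1] at hhz
  have hhz' := abs_le.1 hhz
  have hmid : W.mid k m z := by
    unfold LWorld.mid
    rw [hposz]
    have b1 := band.1
    have b2 := band.2
    constructor <;> linarith [hhz'.1, hhz'.2]
  have hb2 := band_walk W k m g2 (W.G.dist z y) (by rw [hg2]) (by
    rw [hposz]
    have b1 := band.1
    linarith [hhz'.1]) (by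
    rw [hthi, hposz]
    have b2 := band.2
    linarith [hhz'.2])
  have hr1 := reach_of_walk W k m g1 hb1
  have hr2 := reach_of_walk W k m g2 hb2
  have hDy : (W.D k m y : ℝ) - W.D k m z < cp * t := by
    by_contra hc
    push Not at hc
    refine hserve k m m16 hin ⟨hmid, Or.inr ?_⟩
    rw [← ht]
    exact hc
  have hDz : (W.D k m z : ℝ) ≤ W.D k m a + kap * t := by
    have h1 := D_lip W k m hr1.1
    have h2 : ((W.Bg k m).dist a z : ℝ) ≤ W.d a z := by
      have h3 : ((W.Bg k m).dist a z : ℝ) ≤ (g1.length : ℝ) := by exact_mod_cast hr1.2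
      rw [hg1] at h3
      exact h3
    have h3 : (W.D k m z : ℝ) ≤ W.D k m a + ((W.Bg k m).dist a z : ℝ) := by exact_mod_cast h1
    linarith
  -- the index
  have hkey : ∀ v ∈ g1.support, v ∉ W.L y := by
    intro v hv hvL
    obtain ⟨h1, h2, h3, -, -⟩ := split_at g1 hv
    have h4 : W.d v z ≤ kap * t := by
      have h5 : W.G.dist v z ≤ h2.length := SimpleGraph.dist_le h2
      have h6 := congrArg Walk.length h3
      rw [Walk.length_append, hg1] at h6
      have h7 : (W.G.dist v z : ℝ) ≤ W.G.dist a z := by exact_mod_cast (by omega)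
      unfold LWorld.d at haz ⊢
      linarith
    have h5 := d_line W hy hvL (W.mem_L y hy)
    have h6 := height_dist W z v
    rw [d_symm] at h6
    rw [← huzy] at h5
    have h7 := d_tri W z v y
    rw [d_symm W z v, ← ht] at h7
    have h8 : kap * t ≤ (1 / 4) * t := by
      have : kap ≤ 1 / 4 := by unfold kap; norm_num
      exact mul_le_mul_of_nonneg_right this htpos.le
    linarith
  have hidxa : W.idx a < W.idx y := by
    by_contra hc
    push Not at hc
    obtain ⟨v, hv, hvL⟩ := W.sep y hy z hz a ha hidx hc g1.reverse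
    rw [Walk.support_reverse, List.mem_reverse] at hv
    exact hkey v hv hvL
  refine ⟨z, y, t, ⟨hz, hy, huzy, ht, htpos, hnx, haz, hkey a g1.start_mem_support, hidxa,
    hr1.1.trans hr2.1, by linarith⟩, ?_⟩
  have hP : 0 ≤ ρ p := hρ.nonneg p
  have : t ≤ 21 * ((1 / 2 ^ 100) * ρ p) := by
    norm_num at htd ⊢
    linarith
  simpa only [d1] using this

/-- upper bound of the clock at a lined vertex not to the right of the centre -/
theorem Centre.upper [Fintype V] {W : LWorld V} {ρ : V → ℝ} {k m : ℕ} {a z y : V} {t : ℝ}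
    (C : Centre W ρ k m a z y t) {c : V} (hc : c ∈ W.N) (hr : (W.Bg k m).Reachable a c)
    (hi : W.idx c ≤ W.idx y) :
    (W.D k m c : ℝ) ≤ W.D k m a + (kap + cp) * t + |(W.u c : ℝ) - W.u z| := by
  have h1 := D_M W k m hc C.hy (hr.symm.trans C.ray) hi
  have h2 : (W.D k m c : ℝ) ≤ W.D k m y + |(W.u c : ℝ) - W.u y| := by exact_mod_cast h1
  rw [← C.huzy] at h2
  linarith [C.dy]

/-- separation: a walk from `a` which meets `L y` only at its end or not at all ends at an index
not larger than the one of `y` -/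
theorem Centre.left [Fintype V] {W : LWorld V} {ρ : V → ℝ} {k m : ℕ} {a z y : V} {t : ℝ}
    (C : Centre W ρ k m a z y t) (ha : a ∈ W.N) {c : V} (hc : c ∈ W.N) (g : W.G.Walk a c)
    (h : ∀ v ∈ g.support, v ∈ W.L y → v = c) : W.idx c ≤ W.idx y := by
  by_contra hcon
  push Not at hcon
  obtain ⟨v, hv, hvL⟩ := W.sep y C.hy a ha c hc C.lidx.le hcon.le g
  have := h v hv hvL
  rw [this] at hvL
  have := (W.L_sub y C.hy c hvL).2
  omega

/-- the cost of a stretch which ends in `L y` without deviation -/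
theorem Centre.alpha [Fintype V] {W : LWorld V} {ρ w : V → ℝ} {k m : ℕ} {a z y : V} {t : ℝ}
    (C : Centre W ρ k m a z y t) (hw : W.Inv (W.nxt ρ) w) {c : V} (g : W.G.Walk a c)
    (hL : c ∈ W.L y) (hdev : |(W.u c : ℝ) - W.u z| < bb * t) :
    (kap + cp) * t + |(W.u c : ℝ) - W.u z| ≤ (5 / 4) * cost w g := by
  have h1 := d_line W C.hy hL (W.mem_L y C.hy)
  rw [← C.huzy] at h1
  have h2 := d_tri W z a y
  have h3 := d_tri W a c y
  rw [← C.ht, d_symm W z a] at h2
  have haz := C.az
  have h4 : C1 * d1 * W.nxt ρ a ≤ C1 * d1 * t :=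
    mul_le_mul_of_nonneg_left C.nx (by unfold C1 d1; positivity)
  have ht := C.tpos
  have h5 : (1 - kap - bb) * t ≤ W.d a c := by linarith
  have h6 : C1 * d1 * t ≤ (1 - kap - bb) * t := by
    refine mul_le_mul_of_nonneg_right ?_ ht.le
    unfold C1 d1 kap bb
    norm_num
  have h7 := hw.lb a c g (by linarith)
  have h8 : c2 * ((1 - kap - bb) * t) ≤ c2 * W.d a c :=
    mul_le_mul_of_nonneg_left h5 (by unfold c2; positivity)
  have h9 : (kap + cp + bb) * t ≤ (5 / 4 * (c2 * (1 - kap - bb))) * t := by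
    refine mul_le_mul_of_nonneg_right ?_ ht.le
    unfold c2 cp kap bb
    norm_num
  linarith

/-- the cost of a stretch with a deviation -/
theorem Centre.beta [Fintype V] {W : LWorld V} {ρ w : V → ℝ} {k m : ℕ} {a z y : V} {t : ℝ}
    (C : Centre W ρ k m a z y t) (hρ' : W.Scale (W.nxt ρ)) (hw : W.Inv (W.nxt ρ) w) {c : V}
    (g : W.G.Walk a c) {v : V} (hv : v ∈ g.support) (hdev : bb * t ≤ |(W.u v : ℝ) - W.u z|) :
    (kap + cp) * t + |(W.u c : ℝ) - W.u z| ≤ (5 / 4) * cost w g := by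
  obtain ⟨g1, g2, h1, -, -⟩ := split_at g hv
  have h2 := cost_prefix w h1
  have h3 := vert W hρ' hw g1
  have h4 := vert W hρ' hw g
  have haz := C.az
  have ht := C.tpos
  have h5 := height_dist W a z
  have h6 : e1 * W.nxt ρ a ≤ e1 * t :=
    mul_le_mul_of_nonneg_left C.nx (by unfold e1; positivity)
  have h7 : |(W.u v : ℝ) - W.u z| ≤ |(W.u v : ℝ) - W.u a| + |(W.u z : ℝ) - W.u a| := by
    have e : (W.u v : ℝ) - W.u z = ((W.u v : ℝ) - W.u a) - ((W.u z : ℝ) - W.u a) := by ring
    rw [e]; exact abs_sub _ _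
  have h8 : |(W.u c : ℝ) - W.u z| ≤ |(W.u c : ℝ) - W.u a| + |(W.u z : ℝ) - W.u a| := by
    have e : (W.u c : ℝ) - W.u z = ((W.u c : ℝ) - W.u a) - ((W.u z : ℝ) - W.u a) := by ring
    rw [e]; exact abs_sub _ _
  have hnum : ((155 / 128 + 1) * kap + cp + 10 * e1) * t ≤ (27 / 128) * (bb * t) := by
    rw [← mul_assoc]
    refine mul_le_mul_of_nonneg_right ?_ ht.le
    unfold e1 cp kap bb
    norm_num
  rcases le_total (bb * t) |(W.u c : ℝ) - W.u z| with h | h
  · linarith
  · linarith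

/-- the positive case -/
theorem stretch_pos [Fintype V] (W : LWorld V) {ρ w : V → ℝ} (hρ : W.Scale ρ)
    (hw : W.Inv (W.nxt ρ) w) {p a b : V} {k m : ℕ}
    (g : W.G.Walk a b) (hr : W.Reg ρ p k m g) (ha : a ∈ W.N) (hb : b ∈ W.N)
    (hne : a ≠ b) (hpos : 0 < W.nxt ρ a) :
    (W.D k m b : ℝ) ≤ W.D k m a + (5 / 4) * cost w g + 64 * d1 * ρ p ∨
    ∃ (c : V) (g1 : W.G.Walk a c) (g2 : W.G.Walk c b), g = g1.append g2 ∧ 0 < g1.length ∧
      c ∈ W.N ∧ (W.D k m c : ℝ) ≤ W.D k m a + (5 / 4) * cost w g1 := by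
  have hρ' : W.Scale (W.nxt ρ) := nxt_scale W ρ
  obtain ⟨z, y, t, C, htP⟩ := centre W hρ hr.m16 hr.big hr.lo hr.hi
    (hr.ball a g.start_mem_support) (hr.band a g.start_mem_support) ha hpos
  rcases first_prefix g (fun c h => c ∈ W.N ∧
      (c ∈ W.L y ∨ ∃ v ∈ h.support, bb * t ≤ |(W.u v : ℝ) - W.u z|)) with hno | hyes
  · -- the walk ends before
    left
    have hlen : 0 < g.length := by
      by_contra hc
      exact hne (Walk.eq_of_length_eq_zero (p := g) (by omega))
    have h1 := hno b g Walk.nil (by rw [Walk.append_nil]) hlen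
    have h2 : ∀ v ∈ g.support, |(W.u v : ℝ) - W.u z| < bb * t := by
      intro v hv
      by_contra hc
      push Not at hc
      exact h1 ⟨hb, Or.inr ⟨v, hv, hc⟩⟩
    have h3 : W.idx b ≤ W.idx y := by
      refine C.left ha hb g fun v hv hvL => ?_
      exfalso
      obtain ⟨k1, k2, k3, k4, -⟩ := split_at g hv
      refine hno v k1 k2 k3 (k4 fun hva => C.laty (hva ▸ hvL)) ⟨(W.L_sub y C.hy v hvL).1,
        Or.inl hvL⟩
    have h4 := C.upper hb (reach_of_walk W k m g hr.same).1 h3
    have h5 := h2 b g.end_mem_support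
    have h6 := cost_nonneg w g
    have h7 := C.tpos
    have h8 : (kap + cp + bb) * t ≤ 1 * t := by
      refine mul_le_mul_of_nonneg_right ?_ h7.le
      unfold cp kap bb
      norm_num
    have h9 : 0 ≤ d1 * ρ p := mul_nonneg (by unfold d1; positivity) (hρ.nonneg p)
    linarith
  · right
    obtain ⟨c, g1, g2, h1, h2, ⟨hc, h3⟩, h4⟩ := hyes
    have hsub : ∀ v ∈ g1.support, v ∈ g.support := fun v hv => by
      rw [h1, Walk.mem_support_append_iff]; exact Or.inl hv
    have hreach : (W.Bg k m).Reachable a c :=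
      (reach_of_walk W k m g1 fun v hv => hr.same v (hsub v hv)).1
    have hidx : W.idx c ≤ W.idx y := by
      refine C.left ha hc g1 fun v hv hvL => ?_
      by_contra hvc
      obtain ⟨k1, k2, k3, k4, k5⟩ := split_at g1 hv
      exact h4 v k1 k2 k3 (k4 fun hva => C.laty (hva ▸ hvL)) (k5 hvc)
        ⟨(W.L_sub y C.hy v hvL).1, Or.inl hvL⟩
    have hup := C.upper hc hreach hidx
    refine ⟨c, g1, g2, h1, h2, hc, ?_⟩
    by_cases hdev : ∃ v ∈ g1.support, bb * t ≤ |(W.u v : ℝ) - W.u z|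
    · obtain ⟨v, hv, hvd⟩ := hdev
      have := C.beta hρ' hw g1 hv hvd
      linarith
    · have hL : c ∈ W.L y := by
        rcases h3 with h3 | h3
        · exact h3
        · exact absurd h3 hdev
      have hcd : |(W.u c : ℝ) - W.u z| < bb * t := by
        by_contra hcon
        push Not at hcon
        exact hdev ⟨c, g1.end_mem_support, hcon⟩
      have := C.alpha hw g1 hL hcd
      linarith

/-- one stretch -/
theorem stretch [Fintype V] (W : LWorld V) {ρ w : V → ℝ} (hρ : W.Scale ρ)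
    (hw : W.Inv (W.nxt ρ) w) {p a b : V} {k m : ℕ}
    (g : W.G.Walk a b) (hg : g.IsPath) (hr : W.Reg ρ p k m g) (ha : a ∈ W.N) (hb : b ∈ W.N)
    (hne : a ≠ b) :
    (W.D k m b : ℝ) ≤ W.D k m a + (5 / 4) * cost w g + 64 * d1 * ρ p ∨
    ∃ (c : V) (g1 : W.G.Walk a c) (g2 : W.G.Walk c b), g = g1.append g2 ∧ 0 < g1.length ∧
      c ∈ W.N ∧ (W.D k m c : ℝ) ≤ W.D k m a + (5 / 4) * cost w g1 := by
  rcases lt_or_ge 0 (W.nxt ρ a) with hpos | hpos
  · exact stretch_pos W hρ hw g hr ha hb hne hpos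
  · right
    have hρ' : W.Scale (W.nxt ρ) := nxt_scale W ρ
    have hlen : 0 < g.length := by
      by_contra hc
      exact hne (Walk.eq_of_length_eq_zero (p := g) (by omega))
    rcases first_prefix g (fun c _ => c ∈ W.N) with hno | hyes
    · exact absurd hb (hno b g Walk.nil (by rw [Walk.append_nil]) hlen)
    · obtain ⟨c, g1, g2, h1, h2, hc, h4⟩ := hyes
      refine ⟨c, g1, g2, h1, h2, hc, ?_⟩
      have hsub : ∀ v ∈ g1.support, v ∈ g.support := fun v hv => by
        rw [h1, Walk.mem_support_append_iff]; exact Or.inl hv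
      have hg1 : g1.IsPath := by
        rw [h1] at hg
        exact hg.of_append_left
      have h5 := reach_of_walk W k m g1 fun v hv => hr.same v (hsub v hv)
      have h6 := D_lip W k m h5.1
      have h7 : (W.D k m c : ℝ) ≤ W.D k m a + (g1.length : ℝ) := by
        have h8 : (W.D k m c : ℝ) ≤ W.D k m a + ((W.Bg k m).dist a c : ℝ) := by exact_mod_cast h6
        have h9 : ((W.Bg k m).dist a c : ℝ) ≤ (g1.length : ℝ) := by exact_mod_cast h5.2
        linarith
      have h8 := hop_cost W hρ' hw g1 hg1 (fun v hv hva hvc => by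
        intro hvN
        obtain ⟨k1, k2, k3, k4, k5⟩ := split_at g1 hv
        exact h4 v k1 k2 k3 (k4 hva) (k5 hvc) hvN) (by
        have : (0 : ℝ) < 4 / kap := by unfold kap; positivity
        linarith)
      linarith

end Vale.Agent.P235.STO.H483
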